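import Mathlib

set_option linter.unusedSectionVars false
set_option linter.unusedSimpArgs false

/-!
# Fourier analysis on the discrete cube, for P047

Points of the cube are functions `x : ι → ℤˣ`. Boolean functions are maps `(ι → ℤˣ) → ℤˣ`.
-/

namespace Vale.Agent.P047

open Finset

section defs

variable {ι : Type} [Fintype ι]

/-- the character `χ_S(x) = ∏_{i ∈ S} x_i` -/
noncomputable def chi (S : Finset ι) (x : ι → ℤˣ) : ℝ := ∏ i ∈ S, ((x i : ℤ) : ℝ)

variable [DecidableEq ι]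

/-- the Fourier coefficient `E[f(X) χ_S(X)]` of a real function on the cube -/
noncomputable def rcoeff (f : (ι → ℤˣ) → ℝ) (S : Finset ι) : ℝ :=
  (∑ x : ι → ℤˣ, f x * chi S x) / 2 ^ Fintype.card ι

/-- the Fourier coefficient of a Boolean function -/
noncomputable def fhat (f : (ι → ℤˣ) → ℤˣ) (S : Finset ι) : ℝ :=
  rcoeff (fun x => ((f x : ℤ) : ℝ)) S

/-- the degree of `f` is at most `d` -/
def DegLE (f : (ι → ℤˣ) → ℤˣ) (d : ℕ) : Prop := ∀ S : Finset ι, d < S.card → fhat f S = 0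

/-- the sum `∑ᵢ f̂({i})` -/
noncomputable def lin (f : (ι → ℤˣ) → ℤˣ) : ℝ := ∑ i, fhat f {i}

end defs

section basic

variable {ι : Type} [Fintype ι] [DecidableEq ι]

theorem unit_sq (u : ℤˣ) : ((u : ℤ) : ℝ) * ((u : ℤ) : ℝ) = 1 := by
  rcases Int.units_eq_one_or u with h | h <;> simp [h]

theorem unit_abs (u : ℤˣ) : |((u : ℤ) : ℝ)| = 1 := by
  rcases Int.units_eq_one_or u with h | h <;> simp [h]

theorem chi_mul (S : Finset ι) (x y : ι → ℤˣ) : chi S (x * y) = chi S x * chi S y := by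
  simp [chi, Finset.prod_mul_distrib]

theorem chi_abs (S : Finset ι) (x : ι → ℤˣ) : |chi S x| = 1 := by
  simp [chi, Finset.abs_prod, unit_abs]

theorem chi_sq (S : Finset ι) (x : ι → ℤˣ) : chi S x * chi S x = 1 := by
  rw [← chi_mul]
  simp [chi, unit_sq]

theorem chi_singleton (i : ι) (x : ι → ℤˣ) : chi {i} x = ((x i : ℤ) : ℝ) := by
  simp [chi]

theorem chi_empty (x : ι → ℤˣ) : chi (∅ : Finset ι) x = 1 := by
  simp [chi]

theorem chi_single (S : Finset ι) (i : ι) :
    chi S (Pi.mulSingle i (-1)) = if i ∈ S then -1 else 1 := by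
  unfold chi
  split_ifs with h
  · rw [← Finset.mul_prod_erase S _ h]
    have : ∏ j ∈ S.erase i, (((Pi.mulSingle i (-1) : ι → ℤˣ) j : ℤ) : ℝ) = 1 := by
      apply Finset.prod_eq_one
      intro j hj
      have hne : j ≠ i := Finset.ne_of_mem_erase hj
      simp [Pi.mulSingle_eq_of_ne hne]
    rw [this]
    simp
  · apply Finset.prod_eq_one
    intro j hj
    have hne : j ≠ i := fun e => h (e ▸ hj)
    simp [Pi.mulSingle_eq_of_ne hne]

/-- translating by `s` -/
theorem sum_translate (F : (ι → ℤˣ) → ℝ) (s : ι → ℤˣ) :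
    ∑ x : ι → ℤˣ, F (s * x) = ∑ x : ι → ℤˣ, F x :=
  Equiv.sum_comp (Equiv.mulLeft s) F

theorem sum_eq_zero_of_neg (F : (ι → ℤˣ) → ℝ) (s : ι → ℤˣ) (h : ∀ x, F (s * x) = - F x) :
    ∑ x : ι → ℤˣ, F x = 0 := by
  have h1 := sum_translate F s
  simp only [h, Finset.sum_neg_distrib] at h1
  linarith

theorem card_cube : (Fintype.card (ι → ℤˣ) : ℝ) = 2 ^ Fintype.card ι := by
  simp [Fintype.card_fun]

/-- `∑_S χ_S(x) χ_S(y) = 2^n [x = y]` -/
theorem sum_chi_chi (x y : ι → ℤˣ) :
    ∑ S : Finset ι, chi S x * chi S y = if x = y then 2 ^ Fintype.card ι else 0 := by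
  have h1 : ∑ S : Finset ι, chi S x * chi S y
      = ∏ i : ι, (1 + ((x i : ℤ) : ℝ) * ((y i : ℤ) : ℝ)) := by
    rw [Finset.prod_one_add]
    simp only [Finset.powerset_univ]
    apply Finset.sum_congr rfl
    intro S _
    simp [chi, Finset.prod_mul_distrib]
  rw [h1]
  split_ifs with h
  · subst h
    have : ∀ i : ι, (1 + ((x i : ℤ) : ℝ) * ((x i : ℤ) : ℝ)) = 2 := by
      intro i
      rw [unit_sq]; norm_num
    simp [this]
  · obtain ⟨i, hi⟩ := Function.ne_iff.mp h
    apply Finset.prod_eq_zero (Finset.mem_univ i)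
    rcases Int.units_eq_one_or (x i) with hx | hx <;> rcases Int.units_eq_one_or (y i) with hy | hy
    · exact absurd (hx.trans hy.symm) hi
    · simp [hx, hy]
    · simp [hx, hy]
    · exact absurd (hx.trans hy.symm) hi

theorem two_pow_ne : (2 : ℝ) ^ Fintype.card ι ≠ 0 := by positivity

/-- Fourier inversion -/
theorem inversion (f : (ι → ℤˣ) → ℝ) (x : ι → ℤˣ) :
    ∑ S : Finset ι, rcoeff f S * chi S x = f x := by
  unfold rcoeff
  have h1 : ∀ S : Finset ι, (∑ y : ι → ℤˣ, f y * chi S y) / 2 ^ Fintype.card ι * chi S x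
      = ∑ y : ι → ℤˣ, (f y / 2 ^ Fintype.card ι) * (chi S x * chi S y) := by
    intro S
    rw [Finset.sum_div, Finset.sum_mul]
    apply Finset.sum_congr rfl
    intro y _
    ring
  simp only [h1]
  rw [Finset.sum_comm]
  simp only [← Finset.mul_sum, sum_chi_chi]
  simp only [mul_ite, mul_zero, Finset.sum_ite_eq, Finset.mem_univ, if_true]
  field_simp

/-- Parseval -/
theorem parseval (f : (ι → ℤˣ) → ℝ) :
    ∑ x : ι → ℤˣ, f x * f x = 2 ^ Fintype.card ι * ∑ S : Finset ι, rcoeff f S * rcoeff f S := by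
  have h1 : ∀ x : ι → ℤˣ, f x * f x = ∑ S : Finset ι, rcoeff f S * (f x * chi S x) := by
    intro x
    conv_lhs => rw [← inversion f x, Finset.sum_mul]
    rw [inversion f x]
    apply Finset.sum_congr rfl
    intro S _
    ring
  simp only [h1]
  rw [Finset.sum_comm, Finset.mul_sum]
  apply Finset.sum_congr rfl
  intro S _
  rw [← Finset.mul_sum]
  have : ∑ x : ι → ℤˣ, f x * chi S x = 2 ^ Fintype.card ι * rcoeff f S := by
    unfold rcoeff; field_simp
  rw [this]; ring

/-- `f` is given by a real polynomial of total degree at most `d` -/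
def PolyLE (f : (ι → ℤˣ) → ℝ) (d : ℕ) : Prop :=
  ∃ p : MvPolynomial ι ℝ, p.totalDegree ≤ d ∧
    ∀ x : ι → ℤˣ, f x = MvPolynomial.eval (fun i => ((x i : ℤ) : ℝ)) p

theorem rcoeff_monomial (m : ι →₀ ℕ) (S : Finset ι) (h : (m.sum fun _ e => e) < S.card) :
    ∑ x : ι → ℤˣ, (MvPolynomial.eval (fun i => ((x i : ℤ) : ℝ)) (MvPolynomial.monomial m 1))
      * chi S x = 0 := by
  have hex : ∃ i ∈ S, m i = 0 := by
    by_contra hc
    push Not at hc
    have h2 : S.card ≤ m.sum fun _ e => e := by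
      have h3 : S ⊆ m.support := fun i hi => Finsupp.mem_support_iff.mpr (hc i hi)
      calc S.card = ∑ i ∈ S, 1 := by simp
        _ ≤ ∑ i ∈ S, m i := Finset.sum_le_sum fun i hi => Nat.one_le_iff_ne_zero.mpr (hc i hi)
        _ ≤ ∑ i ∈ m.support, m i :=
          Finset.sum_le_sum_of_subset h3
    omega
  obtain ⟨i, hiS, hi0⟩ := hex
  apply sum_eq_zero_of_neg _ (Pi.mulSingle i (-1))
  intro x
  rw [chi_mul, chi_single, if_pos hiS]
  have : (MvPolynomial.eval (fun j => (((Pi.mulSingle i (-1) * x : ι → ℤˣ) j : ℤ) : ℝ)))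
      (MvPolynomial.monomial m (1 : ℝ))
      = (MvPolynomial.eval (fun j => ((x j : ℤ) : ℝ))) (MvPolynomial.monomial m (1 : ℝ)) := by
    rw [MvPolynomial.eval_monomial, MvPolynomial.eval_monomial]
    congr 1
    apply Finset.prod_congr rfl
    intro j hj
    have hji : j ≠ i := by
      intro e
      rw [e, Finsupp.mem_support_iff] at hj
      exact hj hi0
    simp [Pi.mulSingle_eq_of_ne hji]
  rw [this]
  ring

theorem rcoeff_add (f g : (ι → ℤˣ) → ℝ) (S : Finset ι) :
    rcoeff (fun x => f x + g x) S = rcoeff f S + rcoeff g S := by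
  unfold rcoeff
  rw [← add_div, ← Finset.sum_add_distrib]
  congr 1
  apply Finset.sum_congr rfl
  intro x _
  ring

theorem polyLE_rcoeff {f : (ι → ℤˣ) → ℝ} {d : ℕ} (h : PolyLE f d) (S : Finset ι)
    (hS : d < S.card) : rcoeff f S = 0 := by
  obtain ⟨p, hp, hf⟩ := h
  unfold rcoeff
  have h1 : ∑ x : ι → ℤˣ, f x * chi S x = 0 := by
    have h2 : ∀ x : ι → ℤˣ, f x * chi S x = ∑ m ∈ p.support, p.coeff m *
        ((MvPolynomial.eval (fun i => ((x i : ℤ) : ℝ)) (MvPolynomial.monomial m 1)) * chi S x) := by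
      intro x
      rw [hf x]
      conv_lhs => rw [p.as_sum]
      rw [map_sum, Finset.sum_mul]
      apply Finset.sum_congr rfl
      intro m _
      rw [MvPolynomial.eval_monomial, MvPolynomial.eval_monomial]
      ring
    simp only [h2]
    rw [Finset.sum_comm]
    apply Finset.sum_eq_zero
    intro m hm
    rw [← Finset.mul_sum, rcoeff_monomial, mul_zero]
    have := MvPolynomial.le_totalDegree hm
    omega
  rw [h1, zero_div]

theorem polyLE_of_coeff {f : (ι → ℤˣ) → ℝ} {d : ℕ} (h : ∀ S : Finset ι, d < S.card → rcoeff f S = 0) :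
    PolyLE f d := by
  refine ⟨∑ S : Finset ι, MvPolynomial.C (rcoeff f S) * ∏ i ∈ S, MvPolynomial.X i, ?_, ?_⟩
  · apply MvPolynomial.totalDegree_finsetSum_le
    intro S _
    by_cases hS : d < S.card
    · rw [h S hS]; simp
    · refine (MvPolynomial.totalDegree_mul _ _).trans ?_
      rw [MvPolynomial.totalDegree_C, zero_add]
      refine (MvPolynomial.totalDegree_finsetProd _ _).trans ?_
      simp only [MvPolynomial.totalDegree_X, Finset.sum_const, smul_eq_mul, mul_one]
      omega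
  · intro x
    rw [map_sum]
    conv_lhs => rw [← inversion f x]
    apply Finset.sum_congr rfl
    intro S _
    simp [chi]

theorem PolyLE.mul {f g : (ι → ℤˣ) → ℝ} {a b : ℕ} (hf : PolyLE f a) (hg : PolyLE g b) :
    PolyLE (fun x => f x * g x) (a + b) := by
  obtain ⟨p, hp, hf⟩ := hf
  obtain ⟨q, hq, hg⟩ := hg
  refine ⟨p * q, (MvPolynomial.totalDegree_mul _ _).trans (by omega), ?_⟩
  intro x
  show f x * g x = _
  rw [hf x, hg x, map_mul]

theorem PolyLE.mono {f : (ι → ℤˣ) → ℝ} {a b : ℕ} (hf : PolyLE f a) (h : a ≤ b) : PolyLE f b := by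
  obtain ⟨p, hp, hf⟩ := hf
  exact ⟨p, hp.trans h, hf⟩

theorem PolyLE.const (c : ℝ) : PolyLE (fun _ : ι → ℤˣ => c) 0 :=
  ⟨MvPolynomial.C c, by simp, fun x => by simp⟩

theorem PolyLE.smul {f : (ι → ℤˣ) → ℝ} {a : ℕ} (c : ℝ) (hf : PolyLE f a) :
    PolyLE (fun x => c * f x) a := by
  simpa using (PolyLE.const c).mul hf

theorem PolyLE.prod {τ : Type} (T : Finset τ) (F : τ → (ι → ℤˣ) → ℝ) (b : ℕ)
    (h : ∀ t ∈ T, PolyLE (F t) b) : PolyLE (fun x => ∏ t ∈ T, F t x) (T.card * b) := by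
  classical
  induction T using Finset.induction_on with
  | empty => simpa using PolyLE.const (ι := ι) 1
  | insert a T ha ih =>
    have h1 := (h a (Finset.mem_insert_self a T)).mul
      (ih fun t ht => h t (Finset.mem_insert_of_mem ht))
    rw [Finset.card_insert_of_notMem ha]
    have h2 : b + T.card * b = (T.card + 1) * b := by ring
    rw [h2] at h1
    simpa [Finset.prod_insert ha] using h1

theorem PolyLE.sum {τ : Type} (T : Finset τ) (F : τ → (ι → ℤˣ) → ℝ) (b : ℕ)
    (h : ∀ t ∈ T, PolyLE (F t) b) : PolyLE (fun x => ∑ t ∈ T, F t x) b := by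
  classical
  induction T using Finset.induction_on with
  | empty => simpa using (PolyLE.const (ι := ι) 0).mono (Nat.zero_le b)
  | insert a T ha ih =>
    obtain ⟨p, hp, hf⟩ := h a (Finset.mem_insert_self a T)
    obtain ⟨q, hq, hg⟩ := ih fun t ht => h t (Finset.mem_insert_of_mem ht)
    refine ⟨p + q, (MvPolynomial.totalDegree_add _ _).trans (max_le hp hq), ?_⟩
    intro x
    have hg' := hg x
    simp only at hg'
    simp only [Finset.sum_insert ha]
    rw [hf x, hg', map_add]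

/-- change of variables -/
theorem PolyLE.comp_index {κ : Type} [Fintype κ] [DecidableEq κ] (e : ι → κ)
    {f : (ι → ℤˣ) → ℝ} {a : ℕ} (hf : PolyLE f a) : PolyLE (fun x : κ → ℤˣ => f (x ∘ e)) a := by
  obtain ⟨p, hp, hf⟩ := hf
  refine ⟨MvPolynomial.rename e p, (MvPolynomial.totalDegree_rename_le e p).trans hp, ?_⟩
  intro x
  show f (x ∘ e) = _
  rw [hf, MvPolynomial.eval_rename]
  rfl

theorem degLE_iff {f : (ι → ℤˣ) → ℤˣ} {d : ℕ} :
    DegLE f d ↔ PolyLE (fun x => ((f x : ℤ) : ℝ)) d :=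
  ⟨fun h => polyLE_of_coeff h, fun h S hS => polyLE_rcoeff h S hS⟩

theorem DegLE.mono {f : (ι → ℤˣ) → ℤˣ} {a b : ℕ} (h : DegLE f a) (hab : a ≤ b) : DegLE f b :=
  fun S hS => h S (lt_of_le_of_lt hab hS)

theorem abs_rcoeff_le (f : (ι → ℤˣ) → ℝ) (h : ∀ x, |f x| ≤ 1) (S : Finset ι) :
    |rcoeff f S| ≤ 1 := by
  unfold rcoeff
  rw [abs_div, abs_of_pos (by positivity : (0 : ℝ) < 2 ^ Fintype.card ι), div_le_one (by positivity)]
  refine (Finset.abs_sum_le_sum_abs _ _).trans ?_
  refine (Finset.sum_le_sum (g := fun _ => (1 : ℝ)) fun x _ => ?_).trans ?_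
  · rw [abs_mul, chi_abs, mul_one]; exact h x
  · simp only [Finset.sum_const, nsmul_eq_mul, mul_one]
    rw [Finset.card_univ, card_cube]

end basic

end Vale.Agent.P047
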