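import Vale.Agent.P047.Compose

set_option linter.unusedSectionVars false
set_option linter.unusedSimpArgs false

/-!
# The bound `∑ᵢ f̂({i}) ≤ deg f`, and tensor powers, for P047
-/

namespace Vale.Agent.P047

open Finset

section bound

variable {ι : Type} [Fintype ι] [DecidableEq ι]

/-- half the discrete derivative in direction `i` -/
noncomputable def der (f : (ι → ℤˣ) → ℤˣ) (i : ι) (x : ι → ℤˣ) : ℝ :=
  (((f x : ℤ) : ℝ) - ((f (Pi.mulSingle i (-1) * x) : ℤ) : ℝ)) / 2

theorem rcoeff_der (f : (ι → ℤˣ) → ℤˣ) (i : ι) (S : Finset ι) :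
    rcoeff (der f i) S = if i ∈ S then fhat f S else 0 := by
  have h1 : ∑ x : ι → ℤˣ, ((f (Pi.mulSingle i (-1) * x) : ℤ) : ℝ) * chi S x
      = (if i ∈ S then -1 else 1) * ∑ x : ι → ℤˣ, ((f x : ℤ) : ℝ) * chi S x := by
    rw [← sum_translate (fun x => ((f x : ℤ) : ℝ) * chi S x) (Pi.mulSingle i (-1)),
      Finset.mul_sum]
    apply Finset.sum_congr rfl
    intro x _
    rw [chi_mul, chi_single]
    split_ifs <;> ring
  have h2 : ∑ x : ι → ℤˣ, der f i x * chi S x
      = ((∑ x : ι → ℤˣ, ((f x : ℤ) : ℝ) * chi S x) -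
        ∑ x : ι → ℤˣ, ((f (Pi.mulSingle i (-1) * x) : ℤ) : ℝ) * chi S x) / 2 := by
    rw [← Finset.sum_sub_distrib, Finset.sum_div]
    apply Finset.sum_congr rfl
    intro x _
    unfold der
    ring
  unfold rcoeff fhat rcoeff
  rw [h2, h1]
  split_ifs <;> ring

theorem der_le_sq (f : (ι → ℤˣ) → ℤˣ) (i : ι) (x : ι → ℤˣ) :
    der f i x * ((x i : ℤ) : ℝ) ≤ der f i x * der f i x := by
  unfold der
  rcases Int.units_eq_one_or (f x) with h | h <;>
  rcases Int.units_eq_one_or (f (Pi.mulSingle i (-1) * x)) with h' | h' <;>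
  rcases Int.units_eq_one_or (x i) with h'' | h'' <;>
  · simp only [h, h', h'']
    norm_num

theorem fhat_single_le (f : (ι → ℤˣ) → ℤˣ) (i : ι) :
    fhat f {i} ≤ ∑ S : Finset ι, if i ∈ S then fhat f S * fhat f S else 0 := by
  have h1 : fhat f {i} = (∑ x : ι → ℤˣ, der f i x * ((x i : ℤ) : ℝ)) / 2 ^ Fintype.card ι := by
    have := rcoeff_der f i {i}
    rw [if_pos (Finset.mem_singleton_self i)] at this
    rw [← this]
    unfold rcoeff
    simp only [chi_singleton]
  have h2 : (∑ S : Finset ι, if i ∈ S then fhat f S * fhat f S else 0)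
      = (∑ x : ι → ℤˣ, der f i x * der f i x) / 2 ^ Fintype.card ι := by
    rw [parseval]
    rw [mul_div_assoc, mul_div_cancel₀ _ two_pow_ne]
    apply Finset.sum_congr rfl
    intro S _
    rw [rcoeff_der]
    split_ifs <;> simp
  rw [h1, h2]
  apply div_le_div_of_nonneg_right _ (by positivity)
  exact Finset.sum_le_sum fun x _ => der_le_sq f i x

theorem sum_fhat_sq (f : (ι → ℤˣ) → ℤˣ) : ∑ S : Finset ι, fhat f S * fhat f S = 1 := by
  have h1 := parseval (fun x => ((f x : ℤ) : ℝ))
  simp only [unit_sq] at h1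
  have h2 : (∑ x : ι → ℤˣ, (1 : ℝ)) = 2 ^ Fintype.card ι := by
    rw [Finset.sum_const, Finset.card_univ, nsmul_eq_mul, mul_one, card_cube]
  rw [h2] at h1
  have h3 := two_pow_ne (ι := ι)
  have h4 : (2 : ℝ) ^ Fintype.card ι * (∑ S : Finset ι, fhat f S * fhat f S)
      = 2 ^ Fintype.card ι * 1 := by
    rw [mul_one]; exact h1.symm
  exact mul_left_cancel₀ h3 h4

/-- the sum of the degree-one coefficients is at most the degree (Nisan-Szegedy) -/
theorem lin_le (f : (ι → ℤˣ) → ℤˣ) (d : ℕ) (h : DegLE f d) : lin f ≤ d := by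
  unfold lin
  calc ∑ i, fhat f {i} ≤ ∑ i, ∑ S : Finset ι, (if i ∈ S then fhat f S * fhat f S else 0) :=
        Finset.sum_le_sum fun i _ => fhat_single_le f i
    _ = ∑ S : Finset ι, (S.card : ℝ) * (fhat f S * fhat f S) := by
        rw [Finset.sum_comm]
        apply Finset.sum_congr rfl
        intro S _
        rw [← Finset.sum_filter]
        simp
    _ ≤ ∑ S : Finset ι, (d : ℝ) * (fhat f S * fhat f S) := by
        apply Finset.sum_le_sum
        intro S _
        by_cases hS : d < S.card
        · rw [h S hS]; simp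
        · apply mul_le_mul_of_nonneg_right _ (mul_self_nonneg _)
          exact_mod_cast Nat.le_of_not_lt hS
    _ = d := by rw [← Finset.mul_sum, sum_fhat_sq, mul_one]

end bound

/-- tensor powers: from one balanced Boolean function of degree at most `d`, balanced functions of
degree at most `d ^ k` with `lin` raised to the power `k` -/
theorem exists_power {n : ℕ} (f : (Fin n → ℤˣ) → ℤˣ) (d : ℕ) (hf : DegLE f d)
    (hb : fhat f ∅ = 0) (k : ℕ) :
    ∃ (m : ℕ) (g : (Fin m → ℤˣ) → ℤˣ), 1 ≤ m ∧ DegLE g (d ^ k) ∧ fhat g ∅ = 0 ∧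
      lin g = lin f ^ k := by
  induction k with
  | zero =>
    refine ⟨1, fun x => x 0, le_refl 1, ?_, ?_, ?_⟩
    · rw [degLE_iff]
      exact ⟨MvPolynomial.X 0, by simp [MvPolynomial.totalDegree_X], fun x => by simp⟩
    · unfold fhat rcoeff
      simp only [chi_empty, mul_one]
      rw [sum_coord, zero_div]
    · unfold lin fhat rcoeff
      simp only [chi_singleton, Finset.univ_unique, Fin.default_eq_zero, Finset.sum_singleton,
        unit_sq, pow_zero]
      rw [Finset.sum_const, Finset.card_univ, nsmul_eq_mul, mul_one, card_cube]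
      field_simp
  | succ k ih =>
    obtain ⟨m, g, hm, hg, hgb, hgl⟩ := ih
    let e : Fin n × Fin m ≃ Fin (n * m) := finProdFinEquiv
    by_cases hn : n = 0
    · -- then `f` is constant, hence not balanced
      exfalso
      subst hn
      have := sum_fhat_sq f
      have h1 : ∀ S : Finset (Fin 0), S = ∅ := fun S => by
        ext i; exact i.elim0
      have h2 : ∀ S : Finset (Fin 0), fhat f S * fhat f S = 0 := fun S => by
        rw [h1 S, hb, zero_mul]
      simp only [h2, Finset.sum_const_zero] at this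
      exact zero_ne_one this
    · refine ⟨n * m, reindex e (comp f g), ?_, ?_, ?_, ?_⟩
      · exact Nat.mul_pos (Nat.pos_of_ne_zero hn) hm
      · rw [pow_succ, mul_comm (d ^ k)]
        exact degLE_reindex e (degLE_comp hf hg)
      · rw [fhat_empty_reindex, fhat_comp_empty f hgb, hb]
      · rw [lin_reindex, lin_comp f hgb, hgl, pow_succ, mul_comm]

end Vale.Agent.P047
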