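import Vale.Agent.P047.Basic

set_option linter.unusedSectionVars false
set_option linter.unusedSimpArgs false

/-!
# Composition and oddization of Boolean functions, for P047
-/

namespace Vale.Agent.P047

open Finset

section reindex

variable {ι κ : Type} [Fintype ι] [DecidableEq ι] [Fintype κ] [DecidableEq κ]

/-- transport of a Boolean function along a bijection of the index sets -/
def reindex (e : ι ≃ κ) (f : (ι → ℤˣ) → ℤˣ) : (κ → ℤˣ) → ℤˣ := fun x => f (x ∘ e)

theorem fhat_reindex (e : ι ≃ κ) (f : (ι → ℤˣ) → ℤˣ) (S : Finset ι) :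
    fhat (reindex e f) (S.map e.toEmbedding) = fhat f S := by
  unfold fhat rcoeff reindex
  rw [Fintype.card_congr e]
  congr 1
  rw [← Equiv.sum_comp (Equiv.arrowCongr e.symm (Equiv.refl ℤˣ))]
  apply Finset.sum_congr rfl
  intro x _
  simp only [chi, Finset.prod_map]
  rfl

theorem degLE_reindex (e : ι ≃ κ) {f : (ι → ℤˣ) → ℤˣ} {d : ℕ} (h : DegLE f d) :
    DegLE (reindex e f) d := by
  intro S hS
  have h1 : S = (S.map e.symm.toEmbedding).map e.toEmbedding := by
    ext; simp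
  rw [h1, fhat_reindex]
  apply h
  simpa using hS

theorem lin_reindex (e : ι ≃ κ) (f : (ι → ℤˣ) → ℤˣ) : lin (reindex e f) = lin f := by
  unfold lin
  rw [← Equiv.sum_comp e]
  apply Finset.sum_congr rfl
  intro i _
  rw [← fhat_reindex e f]
  simp

theorem fhat_empty_reindex (e : ι ≃ κ) (f : (ι → ℤˣ) → ℤˣ) :
    fhat (reindex e f) ∅ = fhat f ∅ := by
  rw [← fhat_reindex e f]
  simp

end reindex

section compose

variable {ι κ : Type} [Fintype ι] [DecidableEq ι] [Fintype κ] [DecidableEq κ]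

/-- the composition `f(g(x₁), …, g(x_m))` on disjoint blocks of variables -/
def comp (f : (ι → ℤˣ) → ℤˣ) (g : (κ → ℤˣ) → ℤˣ) : (ι × κ → ℤˣ) → ℤˣ :=
  fun x => f fun i => g fun j => x (i, j)

theorem degLE_comp {f : (ι → ℤˣ) → ℤˣ} {g : (κ → ℤˣ) → ℤˣ} {a b : ℕ} (hf : DegLE f a)
    (hg : DegLE g b) : DegLE (comp f g) (a * b) := by
  rw [degLE_iff]
  have h1 : (fun x : ι × κ → ℤˣ => ((comp f g x : ℤ) : ℝ)) = fun x =>
      ∑ T : Finset ι, fhat f T * ∏ i ∈ T, ((g (x ∘ fun j => (i, j)) : ℤ) : ℝ) := by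
    funext x
    have := inversion (fun y : ι → ℤˣ => ((f y : ℤ) : ℝ)) (fun i => g fun j => x (i, j))
    rw [show ((comp f g x : ℤ) : ℝ) = ((f (fun i => g fun j => x (i, j)) : ℤ) : ℝ) from rfl, ← this]
    rfl
  rw [h1]
  apply PolyLE.sum
  intro T _
  by_cases hT : a < T.card
  · rw [hf T hT]
    simpa using (PolyLE.const (ι := ι × κ) 0).mono (Nat.zero_le _)
  · apply PolyLE.smul
    refine (PolyLE.prod T (fun i x => ((g (x ∘ fun j => (i, j)) : ℤ) : ℝ)) b ?_).mono
      (Nat.mul_le_mul_right b (by omega))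
    intro i _
    exact (degLE_iff.mp hg).comp_index (fun j => (i, j))

theorem sum_curry (F : (ι → κ → ℤˣ) → ℝ) :
    ∑ x : ι × κ → ℤˣ, F (fun i j => x (i, j)) = ∑ z : ι → κ → ℤˣ, F z :=
  Equiv.sum_comp (Equiv.curry ι κ ℤˣ) F

theorem sum_pi_prod (F : ι → (κ → ℤˣ) → ℝ) :
    ∑ z : ι → κ → ℤˣ, ∏ i, F i (z i) = ∏ i, ∑ w : κ → ℤˣ, F i w := by
  rw [Finset.prod_univ_sum]
  simp

theorem sum_balanced {g : (κ → ℤˣ) → ℤˣ} (hg : fhat g ∅ = 0) :
    ∑ w : κ → ℤˣ, ((g w : ℤ) : ℝ) = 0 := by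
  unfold fhat rcoeff at hg
  simp only [chi_empty, mul_one] at hg
  rcases div_eq_zero_iff.mp hg with h | h
  · exact h
  · exact absurd h (by positivity)

theorem sum_coord (j : κ) : ∑ w : κ → ℤˣ, ((w j : ℤ) : ℝ) = 0 := by
  apply sum_eq_zero_of_neg _ (Pi.mulSingle j (-1))
  intro x
  simp

theorem fhat_comp_empty (f : (ι → ℤˣ) → ℤˣ) {g : (κ → ℤˣ) → ℤˣ} (hg : fhat g ∅ = 0) :
    fhat (comp f g) ∅ = fhat f ∅ := by
  have hb := sum_balanced hg
  have h1 : ∑ x : ι × κ → ℤˣ, ((comp f g x : ℤ) : ℝ)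
      = ∑ T : Finset ι, fhat f T * ∑ z : ι → κ → ℤˣ,
          ∏ i, (if i ∈ T then ((g (z i) : ℤ) : ℝ) else 1) := by
    simp only [Finset.mul_sum]
    rw [Finset.sum_comm, ← sum_curry]
    apply Finset.sum_congr rfl
    intro x _
    rw [show ((comp f g x : ℤ) : ℝ) = ((f (fun i => g fun j => x (i, j)) : ℤ) : ℝ) from rfl,
      ← inversion (fun y : ι → ℤˣ => ((f y : ℤ) : ℝ)) (fun i => g fun j => x (i, j))]
    apply Finset.sum_congr rfl
    intro T _
    simp only [chi, fhat]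
    congr 1
    rw [Finset.prod_ite_mem]
    simp
  unfold fhat rcoeff
  simp only [chi_empty, mul_one]
  rw [h1]
  have h2 : ∀ T : Finset ι, fhat f T * ∑ z : ι → κ → ℤˣ,
      ∏ i, (if i ∈ T then ((g (z i) : ℤ) : ℝ) else 1)
      = if T = ∅ then fhat f ∅ * 2 ^ (Fintype.card (ι × κ)) else 0 := by
    intro T
    rw [sum_pi_prod (fun i w => if i ∈ T then ((g w : ℤ) : ℝ) else 1)]
    split_ifs with hT
    · subst hT
      simp [Fintype.card_prod, pow_mul, mul_comm]
      left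
      rw [← pow_mul, ← pow_mul, mul_comm]
    · obtain ⟨i, hi⟩ := Finset.nonempty_iff_ne_empty.mpr hT
      rw [Finset.prod_eq_zero (Finset.mem_univ i), mul_zero]
      simp only [if_pos hi]
      exact hb
  simp only [h2, Finset.sum_ite_eq', Finset.mem_univ, if_true]
  unfold fhat rcoeff
  simp only [chi_empty, mul_one]
  field_simp

theorem fhat_comp_single (f : (ι → ℤˣ) → ℤˣ) {g : (κ → ℤˣ) → ℤˣ} (hg : fhat g ∅ = 0)
    (i₀ : ι) (j₀ : κ) : fhat (comp f g) {(i₀, j₀)} = fhat f {i₀} * fhat g {j₀} := by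
  have hb := sum_balanced hg
  have h1 : ∑ x : ι × κ → ℤˣ, ((comp f g x : ℤ) : ℝ) * ((x (i₀, j₀) : ℤ) : ℝ)
      = ∑ T : Finset ι, fhat f T * ∑ z : ι → κ → ℤˣ,
          ∏ i, ((if i ∈ T then ((g (z i) : ℤ) : ℝ) else 1) *
            (if i = i₀ then ((z i j₀ : ℤ) : ℝ) else 1)) := by
    simp only [Finset.mul_sum]
    rw [Finset.sum_comm, ← sum_curry]
    apply Finset.sum_congr rfl
    intro x _
    rw [show ((comp f g x : ℤ) : ℝ) = ((f (fun i => g fun j => x (i, j)) : ℤ) : ℝ) from rfl,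
      ← inversion (fun y : ι → ℤˣ => ((f y : ℤ) : ℝ)) (fun i => g fun j => x (i, j)),
      Finset.sum_mul]
    apply Finset.sum_congr rfl
    intro T _
    rw [Finset.prod_mul_distrib, Finset.prod_ite_mem]
    simp only [chi, fhat, Finset.univ_inter, Finset.prod_ite_eq', Finset.mem_univ, if_true]
    ring
  have h2 : ∀ T : Finset ι, fhat f T * ∑ z : ι → κ → ℤˣ,
      ∏ i, ((if i ∈ T then ((g (z i) : ℤ) : ℝ) else 1) *
            (if i = i₀ then ((z i j₀ : ℤ) : ℝ) else 1))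
      = if T = {i₀} then fhat f {i₀} * (2 ^ (Fintype.card (ι × κ)) * fhat g {j₀}) else 0 := by
    intro T
    rw [sum_pi_prod (fun i w => (if i ∈ T then ((g w : ℤ) : ℝ) else 1) *
            (if i = i₀ then ((w j₀ : ℤ) : ℝ) else 1))]
    split_ifs with hT
    · subst hT
      congr 1
      rw [← Finset.mul_prod_erase _ _ (Finset.mem_univ i₀)]
      have h3 : ∀ i ∈ Finset.univ.erase i₀, (∑ w : κ → ℤˣ, (if i ∈ ({i₀} : Finset ι) then
          ((g w : ℤ) : ℝ) else 1) * (if i = i₀ then ((w j₀ : ℤ) : ℝ) else 1))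
          = 2 ^ Fintype.card κ := by
        intro i hi
        have hne := Finset.ne_of_mem_erase hi
        simp [hne, Fintype.card_fun]
      rw [Finset.prod_congr rfl h3]
      simp only [Finset.mem_singleton, if_true, Finset.prod_const, Finset.card_univ,
        Finset.mem_univ, Finset.card_erase_of_mem]
      unfold fhat rcoeff
      simp only [chi_singleton]
      have h4 : (2 : ℝ) ^ Fintype.card (ι × κ)
          = 2 ^ Fintype.card κ * (2 ^ Fintype.card κ) ^ (Fintype.card ι - 1) := by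
        rw [← pow_succ', Fintype.card_prod, mul_comm, pow_mul]
        congr 1
        have : 0 < Fintype.card ι := Fintype.card_pos_iff.mpr ⟨i₀⟩
        omega
      rw [h4]
      field_simp
    · by_cases hi₀ : i₀ ∈ T
      · obtain ⟨i, hi, hne⟩ : ∃ i ∈ T, i ≠ i₀ := by
          by_contra hc
          push Not at hc
          apply hT
          apply Finset.eq_singleton_iff_unique_mem.mpr
          exact ⟨hi₀, hc⟩
        rw [Finset.prod_eq_zero (Finset.mem_univ i), mul_zero]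
        simp only [if_pos hi, if_neg hne, mul_one]
        exact hb
      · rw [Finset.prod_eq_zero (Finset.mem_univ i₀), mul_zero]
        simp only [if_neg hi₀, if_true, one_mul]
        exact sum_coord j₀
  unfold fhat at *
  rw [show rcoeff (fun x => ((comp f g x : ℤ) : ℝ)) {(i₀, j₀)}
    = (∑ x : ι × κ → ℤˣ, ((comp f g x : ℤ) : ℝ) * ((x (i₀, j₀) : ℤ) : ℝ))
      / 2 ^ Fintype.card (ι × κ) by unfold rcoeff; simp only [chi_singleton], h1]
  simp only [h2, Finset.sum_ite_eq', Finset.mem_univ, if_true]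
  field_simp

theorem lin_comp (f : (ι → ℤˣ) → ℤˣ) {g : (κ → ℤˣ) → ℤˣ} (hg : fhat g ∅ = 0) :
    lin (comp f g) = lin f * lin g := by
  unfold lin
  rw [Fintype.sum_prod_type, Finset.sum_mul_sum]
  apply Finset.sum_congr rfl
  intro i _
  apply Finset.sum_congr rfl
  intro j _
  exact fhat_comp_single f hg i j

end compose

section odd

variable {ι : Type} [Fintype ι] [DecidableEq ι]

/-- the oddization `s y f(s y x)` in one more variable `y`, where `s = ±1` -/
def oddize (s : ℤˣ) (f : (ι → ℤˣ) → ℤˣ) : (Option ι → ℤˣ) → ℤˣ :=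
  fun x => s * x none * f fun i => s * x none * x (some i)

theorem sum_option (F : (Option ι → ℤˣ) → ℝ) :
    ∑ x : Option ι → ℤˣ, F x
      = ∑ y : ℤˣ, ∑ w : ι → ℤˣ, F (fun o => Option.elim o y w) := by
  rw [← Fintype.sum_prod_type']
  rw [← Equiv.sum_comp (Equiv.piOptionEquivProd (α := ι) (β := fun _ => ℤˣ)).symm]
  apply Finset.sum_congr rfl
  rintro ⟨y, w⟩ _
  congr 1
  funext o
  cases o <;> rfl

theorem sum_scale (y : ℤˣ) (F : (ι → ℤˣ) → ℝ) :
    ∑ w : ι → ℤˣ, F (fun i => y * w i) = ∑ w : ι → ℤˣ, F w := by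
  have := sum_translate F (fun _ => y)
  exact this

theorem sum_units (F : ℤˣ → ℝ) : ∑ y : ℤˣ, F y = F 1 + F (-1) := by
  rw [show (Finset.univ : Finset ℤˣ) = {1, -1} from rfl]
  rw [Finset.sum_pair (by decide)]

theorem fhat_oddize_empty (s : ℤˣ) (f : (ι → ℤˣ) → ℤˣ) : fhat (oddize s f) ∅ = 0 := by
  unfold fhat rcoeff
  simp only [chi_empty, mul_one]
  rw [sum_option]
  have : ∀ y : ℤˣ, ∑ w : ι → ℤˣ, ((oddize s f (fun o => Option.elim o y w) : ℤ) : ℝ)
      = ((s : ℤ) : ℝ) * ((y : ℤ) : ℝ) * ∑ w : ι → ℤˣ, ((f w : ℤ) : ℝ) := by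
    intro y
    rw [← sum_scale (s * y) (fun w => ((f w : ℤ) : ℝ)), Finset.mul_sum]
    apply Finset.sum_congr rfl
    intro w _
    simp [oddize]
  simp only [this]
  rw [sum_units]
  simp

theorem fhat_oddize_some (s : ℤˣ) (f : (ι → ℤˣ) → ℤˣ) (i : ι) :
    fhat (oddize s f) {some i} = fhat f {i} := by
  unfold fhat rcoeff
  simp only [chi_singleton]
  rw [sum_option]
  have : ∀ y : ℤˣ, ∑ w : ι → ℤˣ, ((oddize s f (fun o => Option.elim o y w) : ℤ) : ℝ)
        * (((Option.elim (some i) y w : ℤˣ) : ℤ) : ℝ)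
      = ∑ w : ι → ℤˣ, ((f w : ℤ) : ℝ) * ((w i : ℤ) : ℝ) := by
    intro y
    rw [← sum_scale (s * y) (fun w => ((f w : ℤ) : ℝ) * ((w i : ℤ) : ℝ))]
    apply Finset.sum_congr rfl
    intro w _
    simp [oddize]
    ring
  simp only [this]
  rw [sum_units, Fintype.card_option, pow_succ]
  field_simp
  ring

theorem fhat_oddize_none (s : ℤˣ) (f : (ι → ℤˣ) → ℤˣ) :
    fhat (oddize s f) {none} = ((s : ℤ) : ℝ) * fhat f ∅ := by
  unfold fhat rcoeff
  simp only [chi_singleton, chi_empty, mul_one]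
  rw [sum_option]
  have : ∀ y : ℤˣ, ∑ w : ι → ℤˣ, ((oddize s f (fun o => Option.elim o y w) : ℤ) : ℝ)
        * (((Option.elim (none : Option ι) y w : ℤˣ) : ℤ) : ℝ)
      = ((s : ℤ) : ℝ) * ∑ w : ι → ℤˣ, ((f w : ℤ) : ℝ) := by
    intro y
    rw [← sum_scale (s * y) (fun w => ((f w : ℤ) : ℝ)), Finset.mul_sum]
    apply Finset.sum_congr rfl
    intro w _
    have hy := unit_sq y
    simp only [oddize, Option.elim, Units.val_mul, Int.cast_mul]
    linear_combination ((s : ℤ) : ℝ) * ((f fun i => s * y * w i : ℤ) : ℝ) * hy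
  simp only [this]
  rw [sum_units, Fintype.card_option, pow_succ]
  field_simp
  ring

theorem lin_oddize (s : ℤˣ) (f : (ι → ℤˣ) → ℤˣ) :
    lin (oddize s f) = lin f + ((s : ℤ) : ℝ) * fhat f ∅ := by
  unfold lin
  rw [Fintype.sum_option, fhat_oddize_none]
  simp only [fhat_oddize_some]
  ring

theorem degLE_oddize (s : ℤˣ) {f : (ι → ℤˣ) → ℤˣ} {d : ℕ} (hd : Odd d) (h : DegLE f d) :
    DegLE (oddize s f) d := by
  rw [degLE_iff]
  have h1 : (fun x : Option ι → ℤˣ => ((oddize s f x : ℤ) : ℝ)) = fun x =>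
      ∑ T : Finset ι, fhat f T * ((((s : ℤ) : ℝ) * ((x none : ℤ) : ℝ)) ^ (T.card + 1)
        * ∏ i ∈ T, ((x (some i) : ℤ) : ℝ)) := by
    funext x
    have := inversion (fun y : ι → ℤˣ => ((f y : ℤ) : ℝ)) (fun i => s * x none * x (some i))
    rw [show ((oddize s f x : ℤ) : ℝ) = ((s : ℤ) : ℝ) * ((x none : ℤ) : ℝ) *
      ((f (fun i => s * x none * x (some i)) : ℤ) : ℝ) by simp [oddize], ← this, Finset.mul_sum]
    apply Finset.sum_congr rfl
    intro T _
    simp only [chi, fhat, Units.val_mul, Int.cast_mul]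
    rw [Finset.prod_mul_distrib]
    simp only [Finset.prod_const]
    ring
  rw [h1]
  apply PolyLE.sum
  intro T _
  by_cases hT : d < T.card
  · rw [h T hT]
    simpa using (PolyLE.const (ι := Option ι) 0).mono (Nat.zero_le _)
  · apply PolyLE.smul
    have hX : ∀ o : Option ι, PolyLE (fun x : Option ι → ℤˣ => ((x o : ℤ) : ℝ)) 1 := by
      intro o
      exact ⟨MvPolynomial.X o, by simp [MvPolynomial.totalDegree_X], fun x => by simp⟩
    have hprod : PolyLE (fun x : Option ι → ℤˣ => ∏ i ∈ T, ((x (some i) : ℤ) : ℝ)) T.card := by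
      simpa using PolyLE.prod T (fun i x => ((x (some i) : ℤ) : ℝ)) 1 (fun i _ => hX (some i))
    have hsq : ∀ x : Option ι → ℤˣ, ((((s : ℤ) : ℝ) * ((x none : ℤ) : ℝ))) ^ 2 = 1 := by
      intro x
      rw [mul_pow, pow_two, pow_two, unit_sq, unit_sq, one_mul]
    rcases Nat.even_or_odd (T.card) with he | ho
    · have hlt : T.card < d := by
        rcases lt_or_eq_of_le (Nat.le_of_not_lt hT) with h2 | h2
        · exact h2
        · rw [h2] at he
          exact absurd hd (Nat.not_odd_iff_even.mpr he)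
      have h3 : (fun x : Option ι → ℤˣ => (((s : ℤ) : ℝ) * ((x none : ℤ) : ℝ)) ^ (T.card + 1)
          * ∏ i ∈ T, ((x (some i) : ℤ) : ℝ)) = fun x => ((s : ℤ) : ℝ) * (((x none : ℤ) : ℝ)
          * ∏ i ∈ T, ((x (some i) : ℤ) : ℝ)) := by
        funext x
        obtain ⟨k, hk⟩ := he
        rw [pow_succ, hk, ← two_mul, pow_mul, hsq, one_pow]
        ring
      rw [h3]
      apply PolyLE.smul
      exact ((hX none).mul hprod).mono (by omega)
    · have h3 : (fun x : Option ι → ℤˣ => (((s : ℤ) : ℝ) * ((x none : ℤ) : ℝ)) ^ (T.card + 1)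
          * ∏ i ∈ T, ((x (some i) : ℤ) : ℝ)) = fun x => ∏ i ∈ T, ((x (some i) : ℤ) : ℝ) := by
        funext x
        obtain ⟨k, hk⟩ := ho
        rw [hk, show 2 * k + 1 + 1 = 2 * (k + 1) by ring, pow_mul, hsq, one_pow, one_mul]
      rw [h3]
      exact hprod.mono (by omega)

/-- every Boolean function of odd degree bound `d` can be replaced by a balanced one with
`lin` increased by `|f̂(∅)|` -/
theorem exists_odd {f : (ι → ℤˣ) → ℤˣ} {d : ℕ} (hd : Odd d) (h : DegLE f d) :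
    ∃ g : (Option ι → ℤˣ) → ℤˣ, DegLE g d ∧ fhat g ∅ = 0 ∧ lin g = lin f + |fhat f ∅| := by
  rcases le_total 0 (fhat f ∅) with h0 | h0
  · refine ⟨oddize 1 f, degLE_oddize 1 hd h, fhat_oddize_empty 1 f, ?_⟩
    rw [lin_oddize, abs_of_nonneg h0]; simp
  · refine ⟨oddize (-1) f, degLE_oddize (-1) hd h, fhat_oddize_empty (-1) f, ?_⟩
    rw [lin_oddize, abs_of_nonpos h0]; simp

end odd

end Vale.Agent.P047
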